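import Vale.Agent.P338.R3.H955.Digits

/-!
P338-D, load / unload index maps (1): positions `u` (digits in base `B`, digit `0` innermost,
everything above the `D` digits is the selector part), valid positions (digit `k` smaller than
`q k`), and the natural index `idx u`.  Everything on plain natural numbers.
-/

namespace Vale.Agent.P338.R3.H413

open Vale.Agent.P338.R3.H955 (mv up dig)

/-- position of the index `j`: digits `s, ..., s+n-1` of `j` in the radices `q`, written in
base `B`, the rest on top -/
def pos (q : ℕ → ℕ) (B : ℕ) : ℕ → ℕ → ℕ → ℕ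
  | _, 0, j => j
  | s, n + 1, j => j % q s + B * pos q B (s + 1) n (j / q s)

/-- index of the position `u` -/
def idx (q : ℕ → ℕ) (B : ℕ) : ℕ → ℕ → ℕ → ℕ
  | _, 0, u => u
  | s, n + 1, u => u % B + q s * idx q B (s + 1) n (u / B)

/-- the digits `s, ..., s+n-1` of the position are smaller than the radices -/
def vld (q : ℕ → ℕ) (B : ℕ) : ℕ → ℕ → ℕ → Bool
  | _, 0, _ => true
  | s, n + 1, u => decide (u % B < q s) && vld q B (s + 1) n (u / B)

variable {q : ℕ → ℕ} {B : ℕ}

lemma vld_succ {s n u : ℕ} :
    vld q B s (n + 1) u = true ↔ u % B < q s ∧ vld q B (s + 1) n (u / B) = true := by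
  simp [vld]

lemma pos_mod {s n j : ℕ} (hq : 0 < q s) (hB : q s ≤ B) :
    pos q B s (n + 1) j % B = j % q s := by
  rw [pos, Nat.add_mul_mod_self_left, Nat.mod_eq_of_lt]
  exact (Nat.mod_lt _ hq).trans_le hB

lemma pos_div {s n j : ℕ} (hq : 0 < q s) (hB : q s ≤ B) :
    pos q B s (n + 1) j / B = pos q B (s + 1) n (j / q s) := by
  have hB0 : 0 < B := hq.trans_le hB
  rw [pos, Nat.add_mul_div_left _ _ hB0, Nat.div_eq_of_lt ((Nat.mod_lt _ hq).trans_le hB),
    zero_add]

/-- positions of indices are valid -/
theorem vld_pos {s n : ℕ} (hq : ∀ k, s ≤ k → k < s + n → 0 < q k ∧ q k ≤ B) (j : ℕ) :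
    vld q B s n (pos q B s n j) = true := by
  induction n generalizing s j with
  | zero => rfl
  | succ n ih =>
    obtain ⟨h1, h2⟩ := hq s le_rfl (by omega)
    rw [vld_succ, pos_mod h1 h2, pos_div h1 h2]
    exact ⟨Nat.mod_lt _ h1, ih (fun k h3 h4 => hq k (by omega) (by omega)) _⟩

/-- the index of the position of `j` is `j` -/
theorem idx_pos {s n : ℕ} (hq : ∀ k, s ≤ k → k < s + n → 0 < q k ∧ q k ≤ B) (j : ℕ) :
    idx q B s n (pos q B s n j) = j := by
  induction n generalizing s j with
  | zero => rfl
  | succ n ih =>
    obtain ⟨h1, h2⟩ := hq s le_rfl (by omega)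
    rw [idx, pos_mod h1 h2, pos_div h1 h2, ih fun k h3 h4 => hq k (by omega) (by omega)]
    exact Nat.mod_add_div _ _

/-- the position of the index of a valid `u` is `u` -/
theorem pos_idx {s n : ℕ} {u : ℕ} (hu : vld q B s n u = true) :
    pos q B s n (idx q B s n u) = u := by
  induction n generalizing s u with
  | zero => rfl
  | succ n ih =>
    rw [vld_succ] at hu
    have hq : 0 < q s := (Nat.zero_le _).trans_lt hu.1
    have h1 : idx q B s (n + 1) u % q s = u % B := by
      rw [idx, Nat.add_mul_mod_self_left, Nat.mod_eq_of_lt hu.1]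
    have h2 : idx q B s (n + 1) u / q s = idx q B (s + 1) n (u / B) := by
      rw [idx, Nat.add_mul_div_left _ _ hq, Nat.div_eq_of_lt hu.1, zero_add]
    rw [pos, h1, h2, ih hu.2]
    exact Nat.mod_add_div _ _

/-- positions are strictly increasing -/
theorem pos_strictMono {s n : ℕ} (hq : ∀ k, s ≤ k → k < s + n → 0 < q k ∧ q k ≤ B) :
    StrictMono (pos q B s n) := by
  induction n generalizing s with
  | zero => exact strictMono_id
  | succ n ih =>
    obtain ⟨h1, h2⟩ := hq s le_rfl (by omega)
    intro i j hij
    have ih' := ih (s := s + 1) fun k h3 h4 => hq k (by omega) (by omega)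
    rcases Nat.lt_or_ge (i / q s) (j / q s) with h | h
    · have h3 : pos q B (s + 1) n (i / q s) + 1 ≤ pos q B (s + 1) n (j / q s) := ih' h
      have h4 : i % q s < B := (Nat.mod_lt _ h1).trans_le h2
      calc pos q B s (n + 1) i < B + B * pos q B (s + 1) n (i / q s) := by
            rw [pos]; omega
        _ = B * (pos q B (s + 1) n (i / q s) + 1) := by ring
        _ ≤ B * pos q B (s + 1) n (j / q s) := Nat.mul_le_mul_left _ h3
        _ ≤ pos q B s (n + 1) j := by rw [pos]; omega
    · have h3 : i / q s = j / q s := le_antisymm (Nat.div_le_div_right hij.le) h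
      have h4 := Nat.mod_add_div i (q s)
      have h5 := Nat.mod_add_div j (q s)
      rw [h3] at h4
      rw [pos, pos, h3]
      omega

/-- the number of valid positions below `u` is `i` when `u` is the position of `i` -/
theorem filter_range_pos {s n : ℕ} (hq : ∀ k, s ≤ k → k < s + n → 0 < q k ∧ q k ≤ B) (i : ℕ) :
    (List.range (pos q B s n i)).filter (vld q B s n) = (List.range i).map (pos q B s n) := by
  have hm := pos_strictMono hq
  apply List.Perm.eq_of_pairwise (le := (· < ·))
  · intro a b _ _ h1 h2; omega
  · exact List.Pairwise.filter _ List.pairwise_lt_range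
  · rw [List.pairwise_map]
    exact List.pairwise_lt_range.imp fun h => hm h
  · rw [List.perm_ext_iff_of_nodup (List.nodup_range.filter _)
      (List.nodup_range.map hm.injective)]
    intro u
    simp only [List.mem_filter, List.mem_range, List.mem_map]
    constructor
    · rintro ⟨h1, h2⟩
      refine ⟨idx q B s n u, ?_, pos_idx h2⟩
      rw [← pos_idx h2] at h1
      exact hm.lt_iff_lt.1 h1
    · rintro ⟨j, h1, rfl⟩
      exact ⟨hm h1, vld_pos hq j⟩

/-- the position of a multiple of the product of the radices -/
theorem pos_mul {s n : ℕ} (hq : ∀ k, s ≤ k → k < s + n → 0 < q k) (S : ℕ) :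
    pos q B s n (S * up q s n) = S * B ^ n := by
  induction n generalizing s with
  | zero => simp [pos, up]
  | succ n ih =>
    have h1 := hq s le_rfl (by omega)
    have h2 : S * up q s (n + 1) = q s * (S * up q (s + 1) n) := by rw [up]; ring
    rw [pos, h2, Nat.mul_mod_right, Nat.mul_div_cancel_left _ h1,
      ih fun k h3 h4 => hq k (by omega) (by omega)]
    ring

/-- UNLOAD: the valid positions in increasing order are the positions of `0, 1, ...` -/
theorem filter_range {s n : ℕ} (hq : ∀ k, s ≤ k → k < s + n → 0 < q k ∧ q k ≤ B) (S : ℕ) :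
    (List.range (S * B ^ n)).filter (vld q B s n) =
      (List.range (S * up q s n)).map (pos q B s n) := by
  rw [← filter_range_pos hq, pos_mul fun k h1 h2 => (hq k h1 h2).1]

/-- the number of valid positions below a valid `u` -/
theorem count_eq_idx {s n u : ℕ} (hq : ∀ k, s ≤ k → k < s + n → 0 < q k ∧ q k ≤ B)
    (hu : vld q B s n u = true) :
    ((List.range u).filter (vld q B s n)).length = idx q B s n u := by
  conv_lhs => rw [← pos_idx hu]
  rw [filter_range_pos hq, List.length_map, List.length_range]

theorem idx_lt {s n u S : ℕ} (hq : ∀ k, s ≤ k → k < s + n → 0 < q k ∧ q k ≤ B)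
    (hu : vld q B s n u = true) : idx q B s n u < S * up q s n ↔ u < S * B ^ n := by
  rw [← (pos_strictMono hq).lt_iff_lt, pos_idx hu, pos_mul fun k h1 h2 => (hq k h1 h2).1]

/-! ### closed forms -/

/-- digit `k` in base `B` -/
def bdg (B u k : ℕ) : ℕ := u / B ^ k % B

lemma bdg_div {B u k : ℕ} : bdg B (u / B) k = bdg B u (k + 1) := by
  unfold bdg
  rw [Nat.div_div_eq_div_mul, ← pow_succ']

theorem vld_iff {s n u : ℕ} :
    vld q B s n u = true ↔ ∀ k, k < n → bdg B u k < q (s + k) := by
  induction n generalizing s u with
  | zero => simp [vld]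
  | succ n ih =>
    rw [vld_succ, ih]
    constructor
    · rintro ⟨h1, h2⟩ k hk
      rcases k with _ | k
      · simpa [bdg] using h1
      · have := h2 k (by omega)
        rw [bdg_div] at this
        rwa [show s + (k + 1) = s + 1 + k by ring]
    · intro h
      refine ⟨by simpa [bdg] using h 0 (by omega), fun k hk => ?_⟩
      rw [bdg_div, show s + 1 + k = s + (k + 1) by ring]
      exact h (k + 1) (by omega)

lemma mv_shift {q a b : ℕ → ℕ} {s n t : ℕ} (h : ∀ k, k < n → a (s + k) = b (t + k))
    (hq : ∀ k, k < n → q (s + k) = q (t + k)) : mv q a s n = mv q b t n := by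
  induction n generalizing s t with
  | zero => rfl
  | succ n ih =>
    have h1 := h 0 (by omega)
    have h2 := hq 0 (by omega)
    simp only [add_zero] at h1 h2
    rw [mv, mv, h1, h2, ih (s := s + 1) (t := t + 1)]
    · intro k hk
      have := h (k + 1) (by omega)
      rwa [show s + 1 + k = s + (k + 1) by ring, show t + 1 + k = t + (k + 1) by ring]
    · intro k hk
      have := hq (k + 1) (by omega)
      rwa [show s + 1 + k = s + (k + 1) by ring, show t + 1 + k = t + (k + 1) by ring]

/-- the index is `selector part * N' + mixed radix value of the digits` -/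
theorem idx_eq {s n u : ℕ} :
    idx q B s n u = mv q (fun k => bdg B u (k - s)) s n + up q s n * (u / B ^ n) := by
  induction n generalizing s u with
  | zero => simp [idx, mv, up]
  | succ n ih =>
    rw [idx, ih, mv, up, Nat.sub_self]
    have h1 : mv q (fun k => bdg B (u / B) (k - (s + 1))) (s + 1) n =
        mv q (fun k => bdg B u (k - s)) (s + 1) n := by
      apply H955.mv_congr
      intro k hk _
      rw [bdg_div]
      congr 1
      omega
    have h2 : u / B / B ^ n = u / B ^ (n + 1) := by
      rw [Nat.div_div_eq_div_mul, ← pow_succ']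
    rw [h1, h2]
    have h3 : bdg B u 0 = u % B := by simp [bdg]
    rw [h3]
    ring

/-- `idx` for all digits -/
theorem idx_zero {n u : ℕ} :
    idx q B 0 n u = (u / B ^ n) * up q 0 n + mv q (bdg B u) 0 n := by
  rw [idx_eq]
  simp only [Nat.sub_zero]
  ring

lemma div_up_succ (q : ℕ → ℕ) (s n j : ℕ) : j / q s / up q (s + 1) n = j / up q s (n + 1) := by
  rw [Nat.div_div_eq_div_mul, up]

/-- digits of the position of `j` -/
theorem bdg_pos {s n j k : ℕ} (hq : ∀ k, s ≤ k → k < s + n → 0 < q k ∧ q k ≤ B) (hk : k < n) :
    bdg B (pos q B s n j) k = j / up q s k % q (s + k) := by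
  induction n generalizing s j k with
  | zero => omega
  | succ n ih =>
    obtain ⟨h1, h2⟩ := hq s le_rfl (by omega)
    rcases k with _ | k
    · simp only [bdg, pow_zero, Nat.div_one, up, add_zero]
      exact pos_mod h1 h2
    · rw [← bdg_div, pos_div h1 h2, ih (fun k h3 h4 => hq k (by omega) (by omega)) (by omega),
        div_up_succ, show s + 1 + k = s + (k + 1) by ring]

/-- the digits of the position of `j` are the mixed radix digits of `j` -/
theorem bdg_pos_zero {n j k : ℕ} (hq : ∀ k, k < n → 0 < q k ∧ q k ≤ B) (hk : k < n) :
    bdg B (pos q B 0 n j) k = dig q j k := by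
  rw [bdg_pos (fun k _ h => hq k (by omega)) hk, zero_add, dig]

/-- the selector part of the position of `j` -/
theorem pos_div_pow {s n j : ℕ} (hq : ∀ k, s ≤ k → k < s + n → 0 < q k ∧ q k ≤ B) :
    pos q B s n j / B ^ n = j / up q s n := by
  induction n generalizing s j with
  | zero => simp [pos, up]
  | succ n ih =>
    obtain ⟨h1, h2⟩ := hq s le_rfl (by omega)
    rw [pow_succ', ← Nat.div_div_eq_div_mul, pos_div h1 h2,
      ih fun k h3 h4 => hq k (by omega) (by omega), div_up_succ]

/-! ### sequential loading -/

section load

variable {M : Type*}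

/-- the loading loop over the positions of `us`: take the next block at a valid position,
`z` elsewhere; returns the array and the blocks that are left -/
def loadL (v : ℕ → Bool) (z : M) : List ℕ → List M → List M × List M
  | [], bs => ([], bs)
  | u :: us, bs =>
    if v u then (bs.headD z :: (loadL v z us bs.tail).1, (loadL v z us bs.tail).2)
    else (z :: (loadL v z us bs).1, (loadL v z us bs).2)

lemma headD_drop (bs : List M) (c : ℕ) (z : M) : (bs.drop c).headD z = bs.getD c z := by
  rw [List.headD_eq_head?_getD, List.head?_drop, List.getD_eq_getElem?_getD]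

theorem loadL_range' (v : ℕ → Bool) (z : M) (a n c : ℕ) (bs : List M) :
    loadL v z (List.range' a n) (bs.drop c) =
      ((List.range' a n).map (fun u => if v u then
          bs.getD (c + ((List.range' a (u - a)).filter v).length) z else z),
        bs.drop (c + ((List.range' a n).filter v).length)) := by
  induction n generalizing a c with
  | zero => simp [loadL]
  | succ n ih =>
    have key : ∀ c', (∀ u, a + 1 ≤ u → c' + ((List.range' (a + 1) (u - (a + 1))).filter v).length =
        c + ((List.range' a (u - a)).filter v).length) →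
        ((List.range' (a + 1) n).map (fun u => if v u then
          bs.getD (c' + ((List.range' (a + 1) (u - (a + 1))).filter v).length) z else z)) =
        ((List.range' (a + 1) n).map (fun u => if v u then
          bs.getD (c + ((List.range' a (u - a)).filter v).length) z else z)) := by
      intro c' h
      apply List.map_congr_left
      intro u hu
      rw [List.mem_range'_1] at hu
      rw [h u hu.1]
    rw [List.range'_succ, loadL]
    by_cases hv : v a = true
    · have hstep : ∀ u, a + 1 ≤ u → c + 1 + ((List.range' (a + 1) (u - (a + 1))).filter v).length =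
          c + ((List.range' a (u - a)).filter v).length := by
        intro u hu
        obtain ⟨w, rfl⟩ := Nat.exists_eq_add_of_le hu
        rw [show a + 1 + w - a = w + 1 by omega, List.range'_succ, List.filter_cons, if_pos hv,
          show a + 1 + w - (a + 1) = w by omega, List.length_cons]
        ring
      rw [if_pos hv, List.tail_drop, ih (a + 1) (c + 1), key _ hstep, headD_drop,
        List.map_cons, if_pos hv, Nat.sub_self, List.filter_cons, if_pos hv, List.length_cons]
      simp only [List.range'_zero, List.filter_nil, List.length_nil, add_zero]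
      congr 2
      omega
    · have hstep : ∀ u, a + 1 ≤ u → c + ((List.range' (a + 1) (u - (a + 1))).filter v).length =
          c + ((List.range' a (u - a)).filter v).length := by
        intro u hu
        obtain ⟨w, rfl⟩ := Nat.exists_eq_add_of_le hu
        rw [show a + 1 + w - a = w + 1 by omega, List.range'_succ, List.filter_cons,
          if_neg hv, show a + 1 + w - (a + 1) = w by omega]
      rw [if_neg hv, List.map_cons, if_neg hv, List.filter_cons, if_neg hv]
      simp only [ih (a + 1) c, key _ hstep]

/-- general LOAD: the loop over `0, ..., N-1` puts block number `#{valid < u}` at `u` -/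
theorem loadL_range (v : ℕ → Bool) (z : M) (N : ℕ) (bs : List M) :
    loadL v z (List.range N) bs =
      ((List.range N).map (fun u => if v u then
          bs.getD ((List.range u).filter v).length z else z),
        bs.drop ((List.range N).filter v).length) := by
  have := loadL_range' v z 0 N 0 bs
  simpa only [List.drop_zero, List.range_eq_range', zero_add, Nat.sub_zero] using this

/-- LOAD: sequential loading puts block `idx u` at the valid position `u`, and uses exactly
`S * N'` blocks -/
theorem loadL_idx {q : ℕ → ℕ} {B n : ℕ} (hq : ∀ k, k < n → 0 < q k ∧ q k ≤ B) (z : M) (S : ℕ)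
    (bs : List M) :
    loadL (vld q B 0 n) z (List.range (S * B ^ n)) bs =
      ((List.range (S * B ^ n)).map (fun u => if vld q B 0 n u then
          bs.getD (idx q B 0 n u) z else z),
        bs.drop (S * up q 0 n)) := by
  have hq' : ∀ k, 0 ≤ k → k < 0 + n → 0 < q k ∧ q k ≤ B := fun k _ h => hq k (by omega)
  rw [loadL_range, filter_range hq', List.length_map, List.length_range]
  congr 1
  apply List.map_congr_left
  intro u _
  by_cases hu : vld q B 0 n u = true
  · rw [if_pos hu, if_pos hu, count_eq_idx hq' hu]
  · rw [if_neg hu, if_neg hu]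

/-- UNLOAD: reading the valid cells in increasing order gives the entries of the indices
`0, 1, ..., S * N' - 1` -/
theorem unload_pos {q : ℕ → ℕ} {B n : ℕ} (hq : ∀ k, k < n → 0 < q k ∧ q k ≤ B) (S : ℕ)
    (f : ℕ → M) :
    ((List.range (S * B ^ n)).filter (vld q B 0 n)).map f =
      (List.range (S * up q 0 n)).map fun j => f (pos q B 0 n j) := by
  rw [filter_range fun k _ h => hq k (by omega), List.map_map]
  rfl

end load

end Vale.Agent.P338.R3.H413
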