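import Vale.Agent.P338.R3.H898.Act
import Vale.Agent.P338.R3.H413.Idx

/-!
P338-D, load / unload index maps (2): the loading and the unloading loop as lists of acts, their
execution, and the closed form of the loaded array.
-/

namespace Vale.Agent.P338.R3.H413

open Vale.Agent.P338.R2.H898 (Zip)
open Vale.Agent.P338.R3.H968
open Vale.Agent.P338.R3.H898
open Vale.Agent.P338.R2.H778 (val)

/-! ### loading -/

/-- the acts of the loading loop at one position -/
def ldA (v : Bool) : List Act :=
  if v then [aLoadX, aZero, aLoadY, aZero] else [aZero, aZero, aZero, aZero]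

/-- the four cells of a pair of blocks -/
def blk (P : CPar) (x y : List Bool) : List Cell := [cLoad P (val x), cZero, cLoad P (val y), cZero]

/-- four zero cells -/
def z4 : List Cell := [cZero, cZero, cZero, cZero]

/-- EXECUTION OF THE LOADING LOOP over the positions `us` -/
theorem ex_load {P : CPar} (v : ℕ → Bool) (us : List ℕ) (D : DS) (l : List Cell)
    (xs ys : List (List Bool)) (hX : D.X = ⟨l, []⟩) (hx : D.ix = xs) (hy : D.iy = ys)
    (hlx : (us.filter v).length ≤ xs.length) (hly : (us.filter v).length ≤ ys.length)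
    (hwx : ∀ w ∈ xs, w.length = P.Y * P.w) (hwy : ∀ w ∈ ys, w.length = P.Y * P.w) :
    Ex P (us.flatMap fun u => ldA (v u)) D
      { D with
        X := ⟨((loadL v z4 us (List.zipWith (blk P) xs ys)).1.flatten).reverse ++ l, []⟩
        ix := xs.drop (us.filter v).length
        iy := ys.drop (us.filter v).length
        jx := (xs.take (us.filter v).length).reverse ++ D.jx
        jy := (ys.take (us.filter v).length).reverse ++ D.jy } := by
  induction us generalizing D l xs ys with
  | nil =>
    obtain ⟨X, Y, A, B, ix, iy, jx, jy, out, acc, cst, sh⟩ := D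
    simp only at hX hx hy
    subst hX hx hy
    simpa [loadL] using Ex.nil _
  | cons u us ih =>
    obtain ⟨X, Y, A, B, ix, iy, jx, jy, out, acc, cst, sh⟩ := D
    simp only at hX hx hy
    subst hX hx hy
    rw [List.flatMap_cons]
    by_cases hv : v u = true
    · simp only [List.filter_cons, if_pos hv, List.length_cons] at hlx hly
      obtain ⟨x, xs, rfl⟩ : ∃ x xs', ix = x :: xs' := by
        cases ix with
        | nil => simp at hlx
        | cons a b => exact ⟨a, b, rfl⟩
      obtain ⟨y, ys, rfl⟩ : ∃ y ys', iy = y :: ys' := by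
        cases iy with
        | nil => simp at hly
        | cons a b => exact ⟨a, b, rfl⟩
      have hx' := hwx x List.mem_cons_self
      have hy' := hwy y List.mem_cons_self
      have h1 : Ex P (ldA (v u))
          ⟨⟨l, []⟩, Y, A, B, x :: xs, y :: ys, jx, jy, out, acc, cst, sh⟩
          ⟨⟨cZero :: cLoad P (val y) :: cZero :: cLoad P (val x) :: l, []⟩, Y, A, B, xs, ys,
            x :: jx, y :: jy, out, acc, cst, sh⟩ := by
        rw [ldA, if_pos hv]
        refine .cons (Ex1.loadX _ x xs l rfl rfl hx') ?_
        refine .cons (Ex1.zero _ _ rfl) ?_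
        refine .cons (Ex1.loadY _ y ys _ rfl rfl hy') ?_
        exact .cons (Ex1.zero _ _ rfl) (.nil _)
      have h2 := ih ⟨⟨cZero :: cLoad P (val y) :: cZero :: cLoad P (val x) :: l, []⟩, Y, A, B,
        xs, ys, x :: jx, y :: jy, out, acc, cst, sh⟩ _ xs ys rfl rfl rfl
        (by simpa using hlx) (by simpa using hly)
        (fun w hw => hwx w (List.mem_cons_of_mem _ hw))
        (fun w hw => hwy w (List.mem_cons_of_mem _ hw))
      have h3 := h1.append h2
      simpa [loadL, hv, List.filter_cons, blk] using h3
    · simp only [List.filter_cons, if_neg hv] at hlx hly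
      have h1 : Ex P (ldA (v u))
          ⟨⟨l, []⟩, Y, A, B, ix, iy, jx, jy, out, acc, cst, sh⟩
          ⟨⟨cZero :: cZero :: cZero :: cZero :: l, []⟩, Y, A, B, ix, iy,
            jx, jy, out, acc, cst, sh⟩ := by
        rw [ldA, if_neg hv]
        refine .cons (Ex1.zero _ _ rfl) ?_
        refine .cons (Ex1.zero _ _ rfl) ?_
        refine .cons (Ex1.zero _ _ rfl) ?_
        exact .cons (Ex1.zero _ _ rfl) (.nil _)
      have h2 := ih ⟨⟨cZero :: cZero :: cZero :: cZero :: l, []⟩, Y, A, B,
        ix, iy, jx, jy, out, acc, cst, sh⟩ _ ix iy rfl rfl rfl hlx hly hwx hwy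
      have h3 := h1.append h2
      simpa [loadL, hv, List.filter_cons, z4] using h3

/-- the loaded array: the cell number `4 u + e` (`e = 0`: operand x, `e = 2`: operand y) -/
def ldCell (P : CPar) (v : ℕ → Bool) (ix : ℕ → ℕ) (xs ys : List (List Bool)) (i : ℕ) : Cell :=
  if v (i / 4) then
    if i % 4 = 0 then cLoad P (val (xs.getD (ix (i / 4)) []))
    else if i % 4 = 2 then cLoad P (val (ys.getD (ix (i / 4)) [])) else cZero
  else cZero

lemma flatMap_four {M : Type*} (N : ℕ) (g : ℕ → M) :
    (List.range N).flatMap (fun u => [g (4 * u), g (4 * u + 1), g (4 * u + 2), g (4 * u + 3)]) =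
      (List.range (4 * N)).map g := by
  induction N with
  | zero => rfl
  | succ N ih =>
    rw [List.range_succ, List.flatMap_append, ih, show 4 * (N + 1) = 4 * N + 1 + 1 + 1 + 1 by ring,
      List.range_succ, List.range_succ, List.range_succ, List.range_succ]
    simp

/-- the loaded array in closed form, general validity predicate -/
theorem loadL_flatten {P : CPar} (v : ℕ → Bool) (ix : ℕ → ℕ) (N : ℕ) (xs ys : List (List Bool))
    (hix : ∀ u, u < N → v u = true → ((List.range u).filter v).length = ix u)
    (hlx : ((List.range N).filter v).length ≤ xs.length)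
    (hly : ((List.range N).filter v).length ≤ ys.length) :
    (loadL v z4 (List.range N) (List.zipWith (blk P) xs ys)).1.flatten =
      (List.range (4 * N)).map (ldCell P v ix xs ys) := by
  rw [loadL_range]
  simp only
  rw [← flatMap_four, List.flatMap_def]
  congr 1
  apply List.map_congr_left
  intro u hu
  rw [List.mem_range] at hu
  have e0 : 4 * u / 4 = u := by omega
  have e1 : (4 * u + 1) / 4 = u := by omega
  have e2 : (4 * u + 2) / 4 = u := by omega
  have e3 : (4 * u + 3) / 4 = u := by omega
  have f0 : 4 * u % 4 = 0 := by omega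
  have f1 : (4 * u + 1) % 4 = 1 := by omega
  have f2 : (4 * u + 2) % 4 = 2 := by omega
  have f3 : (4 * u + 3) % 4 = 3 := by omega
  simp only [ldCell, e0, e1, e2, e3, f0, f1, f2, f3]
  by_cases hv : v u = true
  · have hlt : ((List.range u).filter v).length < ((List.range N).filter v).length := by
      obtain ⟨n, rfl⟩ := Nat.exists_eq_add_of_lt hu
      rw [show u + n + 1 = u + (n + 1) by ring, List.range_add, List.filter_append,
        List.length_append]
      have : 0 < ((List.map (fun x => u + x) (List.range (n + 1))).filter v).length := by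
        rw [List.length_pos_iff_exists_mem]
        refine ⟨u, List.mem_filter.2 ⟨?_, hv⟩⟩
        exact List.mem_map.2 ⟨0, by simp, by simp⟩
      omega
    rw [hix u hu hv] at hlt ⊢
    simp only [hv, if_true]
    rw [List.getD_eq_getElem?_getD, List.getElem?_zipWith,
      List.getElem?_eq_getElem (by omega), List.getElem?_eq_getElem (by omega)]
    simp only [Option.getD_some, blk, List.getD_eq_getElem?_getD,
      List.getElem?_eq_getElem (show ix u < xs.length by omega),
      List.getElem?_eq_getElem (show ix u < ys.length by omega)]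
    simp
  · simp [hv, z4]

/-! ### unloading -/

/-- the acts of the unloading loop at one position -/
def ulA (v : Bool) : List Act := if v then [aUnl, aR, aR, aR] else [aR, aR, aR, aR]

/-- the released bits, the last upper half and the last carry, for a list of cells -/
def unlF (P : CPar) : List Cell → Cell → ℕ → List Bool × Cell × ℕ
  | [], y, a => ([], y, a)
  | c :: cs, y, a =>
    ((emit P (cAdd (cLo P c) y) P.Y 0 a).1 ++
        (unlF P cs (cHi P c) (emit P (cAdd (cLo P c) y) P.Y 0 a).2).1,
      (unlF P cs (cHi P c) (emit P (cAdd (cLo P c) y) P.Y 0 a).2).2)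

lemma emit_lt {P : CPar} (x : Cell) (n k c : ℕ) (hc : c < 2 ^ P.b) : (emit P x n k c).2 < 2 ^ P.b := by
  induction n generalizing k c with
  | zero => exact hc
  | succ n ih =>
    rw [emit]
    apply ih
    exact (Nat.div_le_self _ _).trans_lt (Nat.mod_lt _ (by positivity))

/-- EXECUTION OF THE UNLOADING LOOP over the positions `us`; `F u e` = the four cells at `u` -/
theorem ex_unload {P : CPar} (v : ℕ → Bool) (us : List ℕ) (D : DS) (F : ℕ → ℕ → Cell)
    (l r : List Cell) (y : Cell) (B : List Cell)
    (hX : D.X = ⟨l, (us.flatMap fun u => [F u 0, F u 1, F u 2, F u 3]) ++ r⟩)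
    (hB : D.B = y :: B) (hacc : D.acc < 2 ^ P.b) :
    Ex P (us.flatMap fun u => ulA (v u)) D
      { D with
        X := ⟨(us.flatMap fun u => [F u 0, F u 1, F u 2, F u 3]).reverse ++ l, r⟩
        B := (unlF P ((us.filter v).map fun u => F u 0) y D.acc).2.1 :: B
        out := D.out ++ (unlF P ((us.filter v).map fun u => F u 0) y D.acc).1
        acc := (unlF P ((us.filter v).map fun u => F u 0) y D.acc).2.2 } := by
  induction us generalizing D l y with
  | nil =>
    obtain ⟨X, Y, A, B', ix, iy, jx, jy, out, acc, cst, sh⟩ := D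
    simp only at hX hB
    subst hX hB
    simpa [unlF] using Ex.nil _
  | cons u us ih =>
    obtain ⟨X, Y, A, B', ix, iy, jx, jy, out, acc, cst, sh⟩ := D
    simp only at hX hB hacc
    subst hX hB
    rw [List.flatMap_cons, List.flatMap_cons]
    by_cases hv : v u = true
    · have h1 : Ex P (ulA (v u))
          ⟨⟨l, [F u 0, F u 1, F u 2, F u 3] ++
            (us.flatMap fun u => [F u 0, F u 1, F u 2, F u 3]) ++ r⟩, Y, A, y :: B, ix, iy, jx, jy,
            out, acc, cst, sh⟩
          ⟨⟨F u 3 :: F u 2 :: F u 1 :: F u 0 :: l,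
            (us.flatMap fun u => [F u 0, F u 1, F u 2, F u 3]) ++ r⟩, Y, A, cHi P (F u 0) :: B, ix,
            iy, jx, jy, out ++ (emit P (cAdd (cLo P (F u 0)) y) P.Y 0 acc).1,
            (emit P (cAdd (cLo P (F u 0)) y) P.Y 0 acc).2, cst, sh⟩ := by
        rw [ulA, if_pos hv]
        refine .cons (Ex1.unl _ (F u 0) y l _ B rfl rfl hacc) ?_
        refine .cons (Ex1.mvR _ (F u 1) _ _ rfl) ?_
        refine .cons (Ex1.mvR _ (F u 2) _ _ rfl) ?_
        exact .cons (Ex1.mvR _ (F u 3) _ _ rfl) (.nil _)
      have h2 := ih ⟨⟨F u 3 :: F u 2 :: F u 1 :: F u 0 :: l,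
            (us.flatMap fun u => [F u 0, F u 1, F u 2, F u 3]) ++ r⟩, Y, A, cHi P (F u 0) :: B, ix,
            iy, jx, jy, out ++ (emit P (cAdd (cLo P (F u 0)) y) P.Y 0 acc).1,
            (emit P (cAdd (cLo P (F u 0)) y) P.Y 0 acc).2, cst, sh⟩ _ _ rfl rfl
            (emit_lt _ _ _ _ hacc)
      have h3 := h1.append h2
      simpa [unlF, hv, List.filter_cons] using h3
    · have h1 : Ex P (ulA (v u))
          ⟨⟨l, [F u 0, F u 1, F u 2, F u 3] ++
            (us.flatMap fun u => [F u 0, F u 1, F u 2, F u 3]) ++ r⟩, Y, A, y :: B, ix, iy, jx, jy,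
            out, acc, cst, sh⟩
          ⟨⟨F u 3 :: F u 2 :: F u 1 :: F u 0 :: l,
            (us.flatMap fun u => [F u 0, F u 1, F u 2, F u 3]) ++ r⟩, Y, A, y :: B, ix,
            iy, jx, jy, out, acc, cst, sh⟩ := by
        rw [ulA, if_neg hv]
        refine .cons (Ex1.mvR _ (F u 0) _ _ rfl) ?_
        refine .cons (Ex1.mvR _ (F u 1) _ _ rfl) ?_
        refine .cons (Ex1.mvR _ (F u 2) _ _ rfl) ?_
        exact .cons (Ex1.mvR _ (F u 3) _ _ rfl) (.nil _)
      have h2 := ih ⟨⟨F u 3 :: F u 2 :: F u 1 :: F u 0 :: l,
            (us.flatMap fun u => [F u 0, F u 1, F u 2, F u 3]) ++ r⟩, Y, A, y :: B, ix,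
            iy, jx, jy, out, acc, cst, sh⟩ _ _ rfl rfl hacc
      have h3 := h1.append h2
      simpa [unlF, hv, List.filter_cons] using h3

end Vale.Agent.P338.R3.H413
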