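import Vale.Agent.P338.R3.H282.Step
import Vale.Agent.P338.R3.H413.LoadEx

/-!
P338-D, load / unload index maps (3): the same for the geometry `Geo` of the schedule.
-/

namespace Vale.Agent.P338.R3.H413

open Vale.Agent.P338.R2.H898 (Zip)
open Vale.Agent.P338.R3.H968
open Vale.Agent.P338.R3.H898
open Vale.Agent.P338.R3.H282
open Vale.Agent.P338.R2.H778 (val)
open Vale.Agent.P338.R3.H955 (mv up dig)

variable (G : Geo)

/-- the radices fit in the digits -/
def GOk : Prop := ∀ k, k < G.d → 0 < G.q k ∧ G.q k ≤ 2 ^ G.a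

lemma dv_eq (u i : ℕ) : G.dv u i = bdg (2 ^ G.a) u i := by
  rw [Geo.dv, bdg, ← pow_mul]

/-- `Geo.valid` is the validity predicate of `Idx` -/
theorem valid_eq (u : ℕ) : G.valid u = vld G.q (2 ^ G.a) 0 G.d u := by
  rw [Bool.eq_iff_iff, vld_iff, Geo.valid, List.all_eq_true]
  simp only [List.mem_range, decide_eq_true_eq, dv_eq, zero_add]

/-- `Geo.idx` is the index of `Idx` -/
theorem idx_geo (u : ℕ) : G.idx u = idx G.q (2 ^ G.a) 0 G.d u := by
  rw [idx_zero, Geo.idx, Geo.sv, Geo.N, Geo.dj, ← pow_mul]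
  congr 1
  congr 1
  funext i
  exact dv_eq G u i

/-- position of the index `j` -/
def gpos (j : ℕ) : ℕ := pos G.q (2 ^ G.a) 0 G.d j

variable {G}

lemma GOk.all (h : GOk G) : ∀ k, 0 ≤ k → k < 0 + G.d → 0 < G.q k ∧ G.q k ≤ 2 ^ G.a :=
  fun k _ hk => h k (by omega)

theorem valid_gpos (h : GOk G) (j : ℕ) : G.valid (gpos G j) = true := by
  rw [valid_eq]; exact vld_pos h.all j

theorem idx_gpos (h : GOk G) (j : ℕ) : G.idx (gpos G j) = j := by
  rw [idx_geo]; exact idx_pos h.all j

theorem gpos_idx {u : ℕ} (hu : G.valid u = true) : gpos G (G.idx u) = u := by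
  rw [idx_geo]; rw [valid_eq] at hu; exact pos_idx hu

/-- digits of the position of `j` -/
theorem dv_gpos (h : GOk G) {j i : ℕ} (hi : i < G.d) : G.dv (gpos G j) i = dig G.q j i := by
  rw [dv_eq]; exact bdg_pos_zero h hi

/-- selector part of the position of `j` -/
theorem sv_gpos (h : GOk G) (j : ℕ) : G.sv (gpos G j) = j / G.N := by
  rw [Geo.sv, pow_mul]; exact pos_div_pow h.all

/-- the mixed radix value of the position of `j` -/
theorem dj_gpos (h : GOk G) (j : ℕ) : G.dj (gpos G j) = j % G.N := by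
  rw [Geo.dj, Geo.N, ← H955.mv_dig]
  exact H955.mv_congr fun k _ hk => dv_gpos h (by omega)

/-- indices of valid positions -/
theorem idx_lt_geo (h : GOk G) {u S : ℕ} (hu : G.valid u = true) :
    G.idx u < S * G.N ↔ u < S * 2 ^ (G.a * G.d) := by
  rw [idx_geo, Geo.N, pow_mul]
  rw [valid_eq] at hu
  exact idx_lt h.all hu

theorem gpos_lt (h : GOk G) {j S : ℕ} : gpos G j < S * 2 ^ (G.a * G.d) ↔ j < S * G.N := by
  rw [← idx_lt_geo h (valid_gpos h j), idx_gpos h]

/-- the positions inside the array are those of the indices below `2 ^ s * N` -/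
theorem gpos_lt_pow (h : GOk G) {j : ℕ} : gpos G j < 2 ^ (G.a * G.d + G.s) ↔ j < 2 ^ G.s * G.N := by
  rw [← gpos_lt h, pow_add, mul_comm]

/-- UNLOAD: the valid positions in increasing order -/
theorem filter_valid (h : GOk G) (S : ℕ) :
    (List.range (S * 2 ^ (G.a * G.d))).filter G.valid =
      (List.range (S * G.N)).map (gpos G) := by
  have h1 := filter_range (S := S) h.all
  rw [← pow_mul] at h1
  rw [Geo.N, show gpos G = pos G.q (2 ^ G.a) 0 G.d from rfl, ← h1]
  apply List.filter_congr
  intro u _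
  rw [valid_eq]

theorem filter_valid_pow (h : GOk G) :
    (List.range (2 ^ (G.a * G.d + G.s))).filter G.valid =
      (List.range (2 ^ G.s * G.N)).map (gpos G) := by
  rw [← filter_valid h, pow_add, mul_comm]

theorem count_valid (h : GOk G) {u : ℕ} (hu : G.valid u = true) :
    ((List.range u).filter G.valid).length = G.idx u := by
  have h1 : G.valid = vld G.q (2 ^ G.a) 0 G.d := funext (valid_eq G)
  rw [idx_geo, h1]
  rw [h1] at hu
  exact count_eq_idx h.all hu

/-! ### the loading predicate: top selector bit `0` -/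

variable (G)

/-- `u` gets a block: valid and top selector bit `0` -/
def vload (u : ℕ) : Bool := G.valid u && !u.testBit (G.a * G.d + (G.s - 1))

variable {G}

lemma top_bit {u m : ℕ} (hu : u < 2 ^ (m + 1)) : u.testBit m = decide (2 ^ m ≤ u) := by
  by_cases h : u < 2 ^ m
  · rw [Nat.testBit_lt_two_pow h, eq_comm, decide_eq_false_iff_not]; omega
  · obtain ⟨v, rfl⟩ := Nat.exists_eq_add_of_le (not_lt.1 h)
    rw [Nat.testBit_two_pow_add_eq, Nat.testBit_lt_two_pow (by rw [pow_succ] at hu; omega)]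
    simp

/-- inside the array `vload` means: valid and in the lower half -/
theorem vload_iff {u : ℕ} (hs : 1 ≤ G.s) (hu : u < 2 ^ (G.a * G.d + G.s)) :
    vload G u = true ↔ G.valid u = true ∧ u < 2 ^ (G.a * G.d + (G.s - 1)) := by
  rw [vload, top_bit (by rwa [show G.a * G.d + (G.s - 1) + 1 = G.a * G.d + G.s by omega])]
  simp

/-- the positions that get a block -/
theorem filter_vload (h : GOk G) (hs : 1 ≤ G.s) :
    (List.range (2 ^ (G.a * G.d + G.s))).filter (vload G) =
      (List.range (2 ^ (G.s - 1) * G.N)).map (gpos G) := by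
  have h2 : 2 ^ (G.a * G.d + G.s) = 2 ^ (G.s - 1) * 2 ^ (G.a * G.d) +
      2 ^ (G.s - 1) * 2 ^ (G.a * G.d) := by
    rw [← two_mul, ← mul_assoc, ← pow_succ', ← pow_add]
    congr 1; omega
  rw [← filter_valid h, h2, List.range_add, List.filter_append]
  have h3 : 2 ^ (G.s - 1) * 2 ^ (G.a * G.d) = 2 ^ (G.a * G.d + (G.s - 1)) := by
    rw [← pow_add, add_comm]
  have h4 : (List.map (fun x => 2 ^ (G.s - 1) * 2 ^ (G.a * G.d) + x)
      (List.range (2 ^ (G.s - 1) * 2 ^ (G.a * G.d)))).filter (vload G) = [] := by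
    rw [List.filter_eq_nil_iff]
    intro u hu
    obtain ⟨x, hx, rfl⟩ := List.mem_map.1 hu
    rw [List.mem_range] at hx
    rw [vload_iff hs (by rw [h2]; omega), ← h3]
    rintro ⟨_, h5⟩
    omega
  rw [h4, List.append_nil]
  apply List.filter_congr
  intro u hu
  rw [List.mem_range] at hu
  rw [Bool.eq_iff_iff, vload_iff hs (by rw [h2]; omega), ← h3]
  exact ⟨fun h => h.1, fun h => ⟨h, hu⟩⟩

theorem length_vload (h : GOk G) (hs : 1 ≤ G.s) :
    ((List.range (2 ^ (G.a * G.d + G.s))).filter (vload G)).length = 2 ^ (G.s - 1) * G.N := by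
  rw [filter_vload h hs, List.length_map, List.length_range]

theorem count_vload (h : GOk G) (hs : 1 ≤ G.s) {u : ℕ} (hu : u < 2 ^ (G.a * G.d + G.s))
    (hv : vload G u = true) : ((List.range u).filter (vload G)).length = G.idx u := by
  have h1 := (vload_iff hs hu).1 hv
  rw [← count_valid h h1.1]
  congr 1
  apply List.filter_congr
  intro w hw
  rw [List.mem_range] at hw
  rw [Bool.eq_iff_iff, vload_iff hs (by omega)]
  exact ⟨fun h => h.1, fun h => ⟨h, by omega⟩⟩

/-- zero block = zero cell -/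
lemma cLoad_zero (P : CPar) : cLoad P 0 = cZero := by
  funext j
  simp [cLoad, cZero]

/-- the loaded array, valid positions -/
theorem ldCell_vload {P : CPar} (h : GOk G) (hs : 1 ≤ G.s) {xs ys : List (List Bool)}
    (hx : xs.length = 2 ^ (G.s - 1) * G.N) (hy : ys.length = 2 ^ (G.s - 1) * G.N) {i : ℕ}
    (hi : i < 4 * 2 ^ (G.a * G.d + G.s)) :
    ldCell P (vload G) G.idx xs ys i = ldCell P G.valid G.idx xs ys i := by
  have hu : i / 4 < 2 ^ (G.a * G.d + G.s) := by omega
  unfold ldCell
  by_cases hv : G.valid (i / 4) = true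
  · by_cases hl : i / 4 < 2 ^ (G.a * G.d + (G.s - 1))
    · rw [if_pos ((vload_iff hs hu).2 ⟨hv, hl⟩), if_pos hv]
    · rw [if_neg (fun h => hl ((vload_iff hs hu).1 h).2), if_pos hv]
      have h1 : 2 ^ (G.s - 1) * G.N ≤ G.idx (i / 4) := by
        by_contra h2
        apply hl
        rw [pow_add, mul_comm, ← idx_lt_geo h hv]
        omega
      have h2 : xs.getD (G.idx (i / 4)) [] = [] := by
        rw [List.getD_eq_getElem?_getD, List.getElem?_eq_none (by omega), Option.getD_none]
      have h3 : ys.getD (G.idx (i / 4)) [] = [] := by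
        rw [List.getD_eq_getElem?_getD, List.getElem?_eq_none (by omega), Option.getD_none]
      have h4 : val [] = 0 := rfl
      rw [h2, h3, h4, cLoad_zero]
      simp
  · rw [if_neg hv, if_neg fun h => hv ((vload_iff hs hu).1 h).1]

/-- THE LOADING LOOP: `2 ^ (s-1) * N` blocks of each operand, `4 * 2 ^ (a d + s)` cells -/
theorem ex_load_geo {P : CPar} (h : GOk G) (hs : 1 ≤ G.s) (D : DS) (l : List Cell)
    (hX : D.X = ⟨l, []⟩) (hx : D.ix.length = 2 ^ (G.s - 1) * G.N)
    (hy : D.iy.length = 2 ^ (G.s - 1) * G.N)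
    (hwx : ∀ w ∈ D.ix, w.length = P.Y * P.w) (hwy : ∀ w ∈ D.iy, w.length = P.Y * P.w) :
    Ex P ((List.range (2 ^ (G.a * G.d + G.s))).flatMap fun u => ldA (vload G u)) D
      { D with
        X := ⟨((List.range (4 * 2 ^ (G.a * G.d + G.s))).map
          (ldCell P G.valid G.idx D.ix D.iy)).reverse ++ l, []⟩
        ix := []
        iy := []
        jx := D.ix.reverse ++ D.jx
        jy := D.iy.reverse ++ D.jy } := by
  have h1 := ex_load (P := P) (vload G) (List.range (2 ^ (G.a * G.d + G.s))) D l D.ix D.iy hX rfl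
    rfl (by rw [length_vload h hs, hx]) (by rw [length_vload h hs, hy]) hwx hwy
  rw [length_vload h hs] at h1
  rw [loadL_flatten (vload G) G.idx _ _ _ (fun u hu hv => count_vload h hs hu hv)
    (by rw [length_vload h hs, hx]) (by rw [length_vload h hs, hy])] at h1
  rw [List.drop_eq_nil_iff.2 (by rw [hx]), List.drop_eq_nil_iff.2 (by rw [hy]),
    List.take_of_length_le (by rw [hx]), List.take_of_length_le (by rw [hy])] at h1
  have h2 : (List.range (4 * 2 ^ (G.a * G.d + G.s))).map (ldCell P (vload G) G.idx D.ix D.iy) =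
      (List.range (4 * 2 ^ (G.a * G.d + G.s))).map (ldCell P G.valid G.idx D.ix D.iy) := by
    apply List.map_congr_left
    intro i hi
    rw [List.mem_range] at hi
    exact ldCell_vload h hs hx hy hi
  rwa [h2] at h1

/-- THE UNLOADING LOOP: the real cells of the first operand at the positions of `0, 1, ...` -/
theorem ex_unload_geo {P : CPar} (h : GOk G) (D : DS) (X : ℕ → Cell) (l r : List Cell)
    (y : Cell) (B : List Cell)
    (hX : D.X = ⟨l, (List.range (4 * 2 ^ (G.a * G.d + G.s))).map X ++ r⟩)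
    (hB : D.B = y :: B) (hacc : D.acc < 2 ^ P.b) :
    Ex P ((List.range (2 ^ (G.a * G.d + G.s))).flatMap fun u => ulA (G.valid u)) D
      { D with
        X := ⟨((List.range (4 * 2 ^ (G.a * G.d + G.s))).map X).reverse ++ l, r⟩
        B := (unlF P ((List.range (2 ^ G.s * G.N)).map fun j => X (4 * gpos G j)) y D.acc).2.1 :: B
        out := D.out ++
          (unlF P ((List.range (2 ^ G.s * G.N)).map fun j => X (4 * gpos G j)) y D.acc).1
        acc := (unlF P ((List.range (2 ^ G.s * G.N)).map fun j => X (4 * gpos G j)) y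
          D.acc).2.2 } := by
  have h0 := flatMap_four (2 ^ (G.a * G.d + G.s)) X
  have h1 := ex_unload (P := P) G.valid (List.range (2 ^ (G.a * G.d + G.s))) D
    (fun u e => X (4 * u + e)) l r y B (by simpa only [add_zero, h0] using hX) hB hacc
  simp only [add_zero] at h1
  rw [h0, filter_valid_pow h, List.map_map] at h1
  exact h1

end Vale.Agent.P338.R3.H413
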